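import Vale.Agent.P100.Eta.Mean
import Vale.Agent.P100.Weighted.Low

/-!
# P100: `v^(p+1)/(p+1) ≤ u^(q+1)/(q+1)` for `q ≤ p`

`w = v - l u^σ`, `σ = (q+1)/(p+1)`, has `Δw ≥ 0` where `w ≥ 0`; so `w⁺` is weakly subharmonic and
`w⁺(x₀)` is at most a mean of `v` at every scale, hence at most a multiple of the minimum of `v`
on large spheres, which tends to zero. No boundedness is used.
-/

namespace Vale.Agent.P100.Eta

open Set Filter Topology MeasureTheory
open Vale.Agent.P252 (pd continuous_pd posPow)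
open Vale.Agent.P100.Weighted (IsSolW rw' sphere_step exists_sqn_eq)

variable {n : ℕ} {p q : ℝ} {u v : (Fin n → ℝ) → ℝ}

theorem continuousOn_lap {w : (Fin n → ℝ) → ℝ} (hw : ContDiffOn ℝ 2 w (punctured n)) :
    ContinuousOn (lap w) (punctured n) :=
  continuousOn_finsetSum _ fun i _ =>
    ((contDiffOn_pd isOpen_punctured hw i).continuousOn_fderiv_of_isOpen isOpen_punctured
      le_rfl).clm_apply continuousOn_const

/-- Chain rule for the Laplacian. -/
theorem lap_comp {g : ℝ → ℝ} {w : (Fin n → ℝ) → ℝ} {S : Set ℝ} (hS : IsOpen S)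
    (hg : ContDiffOn ℝ 2 g S) (hw : ContDiffOn ℝ 2 w (punctured n))
    (hm : ∀ y ∈ punctured n, w y ∈ S) {x : Fin n → ℝ} (hx : x ∈ punctured n) :
    lap (fun y => g (w y)) x =
      deriv g (w x) * lap w x + deriv (deriv g) (w x) * ∑ i, pd i w x ^ 2 := by
  have hO := isOpen_punctured (n := n)
  have hg1 : ContDiffOn ℝ 1 (deriv g) S := hg.deriv_of_isOpen hS (by norm_num)
  have e1 : ∀ y ∈ punctured n, ∀ i, pd i (fun y => g (w y)) y = deriv g (w y) * pd i w y :=
    fun y hy i => by
      have h1 := ((hg.contDiffAt (hS.mem_nhds (hm y hy))).differentiableAt two_ne_zero).hasDerivAt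
      have h2 := (diffAt (hw.of_le one_le_two) hy).hasFDerivAt
      have h := (h1.comp_hasFDerivAt y h2).fderiv
      simp only [Function.comp_def] at h
      simp [pd, h]
  rw [lap, lap, Finset.mul_sum, Finset.mul_sum, ← Finset.sum_add_distrib]
  refine Finset.sum_congr rfl fun i _ => ?_
  rw [pd_congr_at (eventually_of_mem (hO.mem_nhds hx) fun y hy => e1 y hy i)]
  have h1 := ((hg1.contDiffAt (hS.mem_nhds (hm x hx))).differentiableAt one_ne_zero).hasDerivAt
  have h := (h1.comp_hasFDerivAt x (diffAt (hw.of_le one_le_two) hx).hasFDerivAt)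
  simp only [Function.comp_def] at h
  rw [pd_mul_at h.differentiableAt (diffAt (contDiffOn_pd hO hw i) hx)]
  have e := h.fderiv
  simp [pd, e]
  ring

/-- The positive part of a function with `0 ≤ Δw` where `0 ≤ w` is weakly subharmonic. -/
theorem weakSub_posPart {w : (Fin n → ℝ) → ℝ} (hc : Continuous w)
    (hw : ContDiffOn ℝ 2 w (punctured n)) (hl : ∀ x ∈ punctured n, 0 ≤ w x → 0 ≤ lap w x) :
    WeakSub fun x => max (w x) 0 := by
  intro η hη hcs hs h0
  set ε := fun k : ℕ => (1 : ℝ) / (k + 1) with hε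
  have hεp : ∀ k, 0 < ε k := fun k => by simp only [hε]; positivity
  have hεt : Tendsto ε atTop (𝓝 0) := tendsto_one_div_add_atTop_nhds_zero_nat
  set Φ := fun (e t : ℝ) => (t + Real.sqrt (t ^ 2 + e ^ 2)) / 2 with hΦ
  set D := fun (e t : ℝ) => (1 + t / Real.sqrt (t ^ 2 + e ^ 2)) / 2 with hD
  have hpos : ∀ e t : ℝ, e ≠ 0 → 0 < t ^ 2 + e ^ 2 := fun e t he => by positivity
  have habs : ∀ e t : ℝ, |t| ≤ Real.sqrt (t ^ 2 + e ^ 2) := fun e t =>
    Real.abs_le_sqrt (by linarith [sq_nonneg e])
  have hd1 : ∀ e : ℝ, e ≠ 0 → ∀ t, HasDerivAt (Φ e) (D e t) t := fun e he t => by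
    have := ((hasDerivAt_id t).fun_add (((hasDerivAt_pow 2 t).add_const (e ^ 2)).sqrt
      (hpos e t he).ne')).div_const 2
    refine this.congr_deriv ?_
    simp [hD]
    field_simp
  have hd2 : ∀ e : ℝ, e ≠ 0 → ∀ t, 0 ≤ deriv (deriv (Φ e)) t := fun e he t => by
    rw [show deriv (Φ e) = D e from funext fun s => (hd1 e he s).deriv]
    have hq := Real.sqrt_pos.2 (hpos e t he)
    have := (((hasDerivAt_id t).fun_div (((hasDerivAt_pow 2 t).add_const (e ^ 2)).sqrt
      (hpos e t he).ne') hq.ne').const_add 1).div_const 2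
    rw [show D e = fun x => (1 + id x / Real.sqrt (x ^ 2 + e ^ 2)) / 2 from rfl, this.deriv]
    simp only [id, pow_one, Nat.cast_ofNat, Nat.add_one_sub_one, one_mul]
    have hs := Real.sq_sqrt (hpos e t he).le
    rw [div_div, le_div_iff₀ (by positivity), zero_mul, sub_nonneg, mul_div_assoc',
      div_le_iff₀ (by positivity)]
    nlinarith [sq_nonneg e]
  have hDb : ∀ e t : ℝ, 0 ≤ D e t ∧ D e t ≤ 1 := fun e t => by
    have h : |t / Real.sqrt (t ^ 2 + e ^ 2)| ≤ 1 := by
      rw [abs_div, abs_of_nonneg (Real.sqrt_nonneg _)]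
      exact div_le_one_of_le₀ (habs e t) (Real.sqrt_nonneg _)
    rw [abs_le] at h
    constructor <;> simp only [hD] <;> linarith [h.1, h.2]
  have hsm : ∀ k, ContDiff ℝ 2 (Φ (ε k)) := fun k =>
    (contDiff_id.add (((contDiff_id.pow 2).add contDiff_const).sqrt
      fun t => (hpos _ t (hεp k).ne').ne')).div_const 2
  have hlapc := continuousOn_lap hw
  set g := fun (k : ℕ) x => η x * (D (ε k) (w x) * min (lap w x) 0) with hg
  set b := fun x => η x * |lap w x| with hb
  have hbi : Integrable b := integrable_of_zero_off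
    (hη.1.continuous.continuousOn.mul hlapc.abs) hcs.isCompact hs fun x hx => by
      simp [hb, image_eq_zero_of_notMem_tsupport hx]
  have hgm : ∀ k, Integrable (g k) := fun k => by
    refine integrable_of_zero_off (hη.1.continuous.continuousOn.mul (ContinuousOn.mul ?_
      (hlapc.inf continuousOn_const))) hcs.isCompact hs fun x hx => by
        simp [hg, image_eq_zero_of_notMem_tsupport hx]
    simp only [hD]
    exact Continuous.continuousOn ((continuous_const.add (hc.div ((hc.pow 2).add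
      continuous_const).sqrt fun x => (Real.sqrt_pos.2 (hpos _ _ (hεp k).ne')).ne')).div_const 2)
  have hlow : ∀ k, ∫ x, g k x ≤ ∫ x, Φ (ε k) (w x) * lap η x := fun k => by
    have hf : ContDiffOn ℝ 2 (fun x => Φ (ε k) (w x)) (punctured n) := (hsm k).comp_contDiffOn hw
    rw [weak_lap hf hη hcs hs]
    refine integral_mono (hgm k) (integrable_of_zero_off
      (hη.1.continuous.continuousOn.mul (continuousOn_lap hf)) hcs.isCompact hs fun x hx => by
        simp [image_eq_zero_of_notMem_tsupport hx]) fun x => ?_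
    by_cases hx : x ∈ tsupport η
    · refine mul_le_mul_of_nonneg_left ?_ (h0 x)
      rw [lap_comp isOpen_univ (hsm k).contDiffOn hw (fun y _ => mem_univ _) (hs hx),
        (hd1 _ (hεp k).ne' _).deriv]
      have h1 := mul_le_mul_of_nonneg_left (min_le_left (lap w x) 0) (hDb (ε k) (w x)).1
      have h2 := mul_nonneg (hd2 _ (hεp k).ne' (w x))
        (Finset.sum_nonneg fun (i : Fin n) (_ : i ∈ Finset.univ) => sq_nonneg (pd i w x))
      linarith
    · simp [hg, image_eq_zero_of_notMem_tsupport hx]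
  have tg : Tendsto (fun k => ∫ x, g k x) atTop (𝓝 0) := by
    have h := tendsto_integral_of_dominated_convergence b (fun k => (hgm k).aestronglyMeasurable)
      hbi (fun k => Eventually.of_forall fun x => ?_)
      (f := fun _ => (0 : ℝ)) (Eventually.of_forall fun x => ?_)
    · simpa using h
    · rw [hg, hb, Real.norm_eq_abs, abs_mul, abs_mul, abs_of_nonneg (h0 x),
        abs_of_nonneg (hDb _ _).1]
      refine mul_le_mul_of_nonneg_left ((mul_le_of_le_one_left (abs_nonneg _) (hDb _ _).2).trans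
        ?_) (h0 x)
      rcases le_total (lap w x) 0 with h | h
      · rw [min_eq_left h]
      · simp [min_eq_right h]
    · by_cases hx : x ∈ tsupport η
      · rcases le_or_gt 0 (w x) with h | h
        · simp [hg, min_eq_right (hl x (hs hx) h)]
        · have hca : ContinuousAt (fun e => D e (w x)) 0 := by
            simp only [hD]
            exact (continuousAt_const.add (continuousAt_const.div (by fun_prop)
              (by simp [h.ne, Real.sqrt_sq_eq_abs]))).div_const 2
          have t1 : Tendsto (fun k => D (ε k) (w x)) atTop (𝓝 (D 0 (w x))) := hca.tendsto.comp hεt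
          have e : D 0 (w x) = 0 := by
            simp [hD, Real.sqrt_sq_eq_abs, abs_of_neg h, h.ne]
          rw [e] at t1
          simpa [hg] using (t1.mul_const (min (lap w x) 0)).const_mul (η x)
      · simp [hg, image_eq_zero_of_notMem_tsupport hx]
  have hlc : HasCompactSupport (lap η) :=
    HasCompactSupport.intro hcs.isCompact fun x hx => lap_eq_zero_off hx
  have ip : Integrable fun x => max (w x) 0 * lap η x :=
    ((hc.max continuous_const).mul hη.continuous_lap).integrable_of_hasCompactSupport hlc.mul_left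
  have ia : Integrable fun x => |lap η x| :=
    hη.continuous_lap.abs.integrable_of_hasCompactSupport hlc.abs
  have hup : ∀ k, ∫ x, Φ (ε k) (w x) * lap η x ≤
      (∫ x, max (w x) 0 * lap η x) + ε k * ∫ x, |lap η x| := fun k => by
    rw [← integral_const_mul, ← integral_add ip (ia.const_mul _)]
    refine integral_mono (((hsm k).continuous.comp hc).mul
      hη.continuous_lap |>.integrable_of_hasCompactSupport hlc.mul_left)
      (ip.add (ia.const_mul _)) fun x => ?_
    have h1 : |Φ (ε k) (w x) - max (w x) 0| ≤ ε k := by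
      have hs1 : Real.sqrt (w x ^ 2 + ε k ^ 2) ≤ |w x| + ε k := by
        rw [Real.sqrt_le_left (add_nonneg (abs_nonneg _) (hεp k).le)]
        nlinarith [sq_abs (w x), abs_nonneg (w x), hεp k]
      have hs2 := habs (ε k) (w x)
      rw [abs_le]
      rcases le_total (w x) 0 with h | h
      · rw [abs_of_nonpos h] at hs1 hs2
        rw [max_eq_right h]; simp only [hΦ]; constructor <;> linarith [hεp k]
      · rw [abs_of_nonneg h] at hs1 hs2
        rw [max_eq_left h]; simp only [hΦ]; constructor <;> linarith [hεp k]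
    calc Φ (ε k) (w x) * lap η x
        = max (w x) 0 * lap η x + (Φ (ε k) (w x) - max (w x) 0) * lap η x := by ring
      _ ≤ _ := by
          refine add_le_add le_rfl ((le_abs_self _).trans ?_)
          rw [abs_mul]
          exact mul_le_mul_of_nonneg_right h1 (abs_nonneg _)
  refine le_of_tendsto_of_tendsto' tg ?_ fun k => (hlow k).trans (hup k)
  simpa using (hεt.mul_const (∫ x, |lap η x|)).const_add (∫ x, max (w x) 0 * lap η x)

theorem toW (h : IsSol p q u v) : IsSolW 0 0 p q u v :=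
  ⟨h.smooth_u, h.smooth_v, h.cont_u, h.cont_v, h.pos_u, h.pos_v,
    fun x hx => by simpa [rw'] using h.eq_u x hx, fun x hx => by simpa [rw'] using h.eq_v x hx⟩

/-- The means of `v` around `x₀` are at most a multiple of its values on the sphere of radius
`R ≥ |x₀|`. -/
theorem avg_le_sphere (hn : 3 ≤ n) (h : IsSol p q u v) {x₀ x' : Fin n → ℝ} {R : ℝ} (hR : 0 < R)
    (h0 : sqn x₀ ≤ R ^ 2) (h' : sqn x' = R ^ 2) :
    (4 ^ n)⁻¹ * (7 / 16) ^ 2 * avg v x₀ R ≤ v x' * ∫ y : Fin n → ℝ, ker y := by
  have hsub : WeakSub fun x => -v x := fun η hη hc hs h0 => by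
    simp only [neg_mul, integral_neg, neg_nonneg]
    rw [weak_lap h.smooth_v hη hc hs]
    refine integral_nonpos fun x => ?_
    by_cases hx : x ∈ tsupport η
    · rw [h.eq_v x (hs hx)]
      exact mul_nonpos_of_nonneg_of_nonpos (h0 x)
        (neg_nonpos.2 (Real.rpow_nonneg (h.pos_u x).le _))
    · simp [image_eq_zero_of_notMem_tsupport hx]
  have hm := le_avg hn h.cont_v.neg hsub x' (by positivity : (0 : ℝ) < 4 * R)
  simp only [avg, Pi.neg_apply, neg_mul, integral_neg, neg_le_neg_iff] at hm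
  refine le_trans ?_ hm
  set F := fun z : Fin n → ℝ => v (x' + (4 * R) • z) * ker z with hF
  have h1 := Measure.integral_comp_smul_of_nonneg (μ := volume) F ((4 : ℝ)⁻¹) (hR := by norm_num)
  have h2 := integral_add_left_eq_self (μ := volume)
    (fun z : Fin n → ℝ => F ((4 : ℝ)⁻¹ • z)) (R⁻¹ • (x₀ - x'))
  simp only [Module.finrank_fin_fun, smul_eq_mul, inv_pow, inv_inv] at h1
  have e : ∀ z : Fin n → ℝ, F ((4 : ℝ)⁻¹ • (R⁻¹ • (x₀ - x') + z)) =
      v (x₀ + R • z) * ker ((4 * R)⁻¹ • (x₀ - x' + R • z)) := fun z => by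
    have e1 : (4 : ℝ)⁻¹ • (R⁻¹ • (x₀ - x') + z) = (4 * R)⁻¹ • (x₀ - x' + R • z) := by
      ext i; simp; field_simp
    simp only [hF, e1, smul_smul, mul_inv_cancel₀ (by positivity : (4 * R) ≠ 0), one_smul]
    congr 2
    abel
  simp only [e] at h2
  have key : (7 / 16) ^ 2 * avg v x₀ R ≤
      ∫ z : Fin n → ℝ, v (x₀ + R • z) * ker ((4 * R)⁻¹ • (x₀ - x' + R • z)) := by
    rw [avg, ← integral_const_mul]
    have cv : Continuous fun z : Fin n → ℝ => v (x₀ + R • z) := h.cont_v.comp (by fun_prop)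
    refine integral_mono ((cv.mul continuous_ker).integrable_of_hasCompactSupport
      hasCompactSupport_ker.mul_left |>.const_mul _) ?_ fun z => ?_
    · refine (cv.mul (continuous_ker.comp (by fun_prop))).integrable_of_hasCompactSupport
        (HasCompactSupport.mul_left ?_)
      have : (fun z : Fin n → ℝ => ker ((4 * R)⁻¹ • (x₀ - x' + R • z))) = (fun z => ker z) ∘
          ((Homeomorph.smulOfNeZero R hR.ne').trans ((Homeomorph.addLeft (x₀ - x')).trans
            (Homeomorph.smulOfNeZero ((4 * R)⁻¹) (by positivity)))) := rfl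
      simp only [Function.comp_def] at this ⊢
      rw [this]
      exact hasCompactSupport_ker.comp_homeomorph _
    · rw [← mul_assoc, mul_comm ((7 / 16 : ℝ) ^ 2), mul_assoc]
      refine mul_le_mul_of_nonneg_left ?_ (h.pos_v _).le
      rcases le_or_gt (sqn z) 1 with hz | hz
      · have hk : sqn ((4 * R)⁻¹ • (x₀ - x' + R • z)) ≤ 9 / 16 := by
          have hb : sqn (x₀ - x' + R • z) ≤ 3 * (sqn x₀ + sqn x' + R ^ 2 * sqn z) := by
            simp only [sqn, Finset.mul_sum, ← Finset.sum_add_distrib]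
            refine Finset.sum_le_sum fun i _ => ?_
            simp only [Pi.add_apply, Pi.sub_apply, Pi.smul_apply, smul_eq_mul]
            nlinarith [sq_nonneg (x₀ i + x' i), sq_nonneg (x₀ i - R * z i),
              sq_nonneg (x' i + R * z i)]
          have hbb : sqn (x₀ - x' + R • z) ≤ 9 * R ^ 2 := by
            nlinarith [mul_le_mul_of_nonneg_left hz (sq_nonneg R)]
          have es : sqn ((4 * R)⁻¹ • (x₀ - x' + R • z)) =
              ((4 * R) ^ 2)⁻¹ * sqn (x₀ - x' + R • z) := by
            simp only [sqn, Pi.smul_apply, smul_eq_mul, mul_pow, inv_pow, Finset.mul_sum]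
          rw [es, inv_mul_le_iff₀ (by positivity)]
          linarith
        have h3 : max (1 - sqn z) 0 ≤ 1 := max_le (by linarith [sqn_nonneg z]) zero_le_one
        simp only [ker, posPow, max_eq_left (by linarith : (0 : ℝ) ≤ 1 - sqn ((4 * R)⁻¹ •
          (x₀ - x' + R • z)))]
        nlinarith [pow_le_pow_left₀ (le_max_right _ _) h3 2,
          pow_le_pow_left₀ (by norm_num : (0 : ℝ) ≤ 7 / 16)
            (by linarith : (7 / 16 : ℝ) ≤ 1 - sqn ((4 * R)⁻¹ • (x₀ - x' + R • z))) 2]
      · rw [ker_eq_zero hz, mul_zero]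
        exact ker_nonneg _
  calc (4 ^ n)⁻¹ * (7 / 16) ^ 2 * avg v x₀ R
      ≤ (4 ^ n)⁻¹ * ∫ z : Fin n → ℝ, v (x₀ + R • z) * ker ((4 * R)⁻¹ • (x₀ - x' + R • z)) := by
        rw [mul_assoc]; exact mul_le_mul_of_nonneg_left key (by positivity)
    _ = ∫ z, F z := by
        rw [h2, h1]
        field_simp

/-- The comparison for `q ≤ p`, `1 < pq`, with no boundedness assumption. -/
theorem comparison (hn : 3 ≤ n) (h : IsSol p q u v) (hq : 0 < q) (hqp : q ≤ p) (hpq : 1 < p * q)
    (x₀ : Fin n → ℝ) : v x₀ ^ (p + 1) / (p + 1) ≤ u x₀ ^ (q + 1) / (q + 1) := by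
  have hp : 0 < p := hq.trans_le hqp
  set σ := (q + 1) / (p + 1) with hσ
  have hσ0 : 0 < σ := by positivity
  have hσ1 : σ ≤ 1 := (div_le_one (by linarith)).2 (by linarith)
  set l := σ ^ (-(1 / (p + 1))) with hl
  have hl0 : 0 < l := Real.rpow_pos_of_pos hσ0 _
  have hlp : l ^ (p + 1) = σ⁻¹ := by
    rw [hl, ← Real.rpow_mul hσ0.le, neg_mul, one_div, inv_mul_cancel₀ (by linarith),
      Real.rpow_neg_one]
  set w := fun x => v x + -l * u x ^ σ with hw
  have hus : ContDiffOn ℝ 2 (fun x => u x ^ σ) (punctured n) :=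
    h.smooth_u.rpow_const_of_ne fun x _ => (h.pos_u x).ne'
  have hwc : Continuous w :=
    h.cont_v.add (continuous_const.mul (h.cont_u.rpow_const fun x => Or.inl (h.pos_u x).ne'))
  have hws : ContDiffOn ℝ 2 w (punctured n) := h.smooth_v.add (contDiffOn_const.mul hus)
  have hlap : ∀ x ∈ punctured n, 0 ≤ w x → 0 ≤ lap w x := by
    intro x hx hwx
    have hu := h.pos_u x
    have hd : ∀ t : ℝ, 0 < t → deriv (fun t => -l * t ^ σ) t = -l * σ * t ^ (σ - 1) :=
        fun t ht => by
      rw [((Real.hasDerivAt_rpow_const (p := σ) (Or.inl ht.ne')).const_mul (-l)).deriv]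
      ring
    have hdd : deriv (deriv fun t => -l * t ^ σ) (u x) =
        -l * σ * (σ - 1) * u x ^ (σ - 1 - 1) := by
      have hev : deriv (fun t => -l * t ^ σ) =ᶠ[𝓝 (u x)] fun t => -l * σ * t ^ (σ - 1) :=
        eventually_of_mem (Ioi_mem_nhds hu) fun t ht => hd t ht
      rw [hev.deriv_eq,
        ((Real.hasDerivAt_rpow_const (p := σ - 1) (Or.inl hu.ne')).const_mul (-l * σ)).deriv]
      ring
    rw [hw, Weighted.lap_add isOpen_punctured h.smooth_v (contDiffOn_const.mul hus) hx,
      lap_comp (g := fun t => -l * t ^ σ) isOpen_Ioi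
        (contDiffOn_const.mul (contDiffOn_id.rpow_const_of_ne fun t (ht : 0 < t) => ht.ne'))
        h.smooth_u (fun y _ => h.pos_u y) hx, hdd, hd _ hu, h.eq_u x hx, h.eq_v x hx]
    have hv : l * u x ^ σ ≤ v x := by simp only [hw] at hwx; linarith
    have h1 : (l * u x ^ σ) ^ p ≤ v x ^ p := Real.rpow_le_rpow (by positivity) hv hp.le
    have h2 : l * σ * (u x ^ (σ - 1) * (l * u x ^ σ) ^ p) = u x ^ q := by
      rw [Real.mul_rpow hl0.le (by positivity), ← Real.rpow_mul hu.le]
      calc l * σ * (u x ^ (σ - 1) * (l ^ p * u x ^ (σ * p)))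
          = σ * (l ^ p * l) * (u x ^ (σ - 1) * u x ^ (σ * p)) := by ring
        _ = u x ^ q := by
            rw [← Real.rpow_add_one hl0.ne', hlp, ← Real.rpow_add hu, mul_inv_cancel₀ hσ0.ne',
              one_mul]
            congr 1
            rw [hσ]; field_simp; ring
    have h3 : u x ^ q ≤ l * σ * (u x ^ (σ - 1) * v x ^ p) := h2 ▸ by
      exact mul_le_mul_of_nonneg_left (mul_le_mul_of_nonneg_left h1 (by positivity)) (by positivity)
    have h4 : 0 ≤ -l * σ * (σ - 1) * u x ^ (σ - 1 - 1) * ∑ i, pd i u x ^ 2 := by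
      have : 0 ≤ l * σ * (1 - σ) := mul_nonneg (by positivity) (by linarith)
      have h5 := mul_nonneg (mul_nonneg this (Real.rpow_nonneg hu.le (σ - 1 - 1)))
        (Finset.sum_nonneg fun (i : Fin n) (_ : i ∈ Finset.univ) => sq_nonneg (pd i u x))
      linarith
    linarith
  suffices hneg : w x₀ ≤ 0 by
    have hv : v x₀ ≤ l * u x₀ ^ σ := by simp only [hw] at hneg; linarith
    have := Real.rpow_le_rpow (h.pos_v x₀).le hv (by linarith : (0 : ℝ) ≤ p + 1)
    rw [Real.mul_rpow hl0.le (Real.rpow_nonneg (h.pos_u x₀).le _), hlp,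
      ← Real.rpow_mul (h.pos_u x₀).le, hσ, div_mul_cancel₀ _ (by linarith : p + 1 ≠ 0)] at this
    rw [div_le_div_iff₀ (by linarith) (by linarith)]
    refine (mul_le_mul_of_nonneg_right this (by linarith)).trans_eq ?_
    field_simp
  by_contra hpos
  push Not at hpos
  set K := ∫ y : Fin n → ℝ, ker y with hK
  have hK0 : 0 < K := ker_mass_pos
  set c := (4 ^ n : ℝ)⁻¹ * (7 / 16) ^ 2 with hc
  have hc0 : 0 < c := by positivity
  obtain ⟨L₁, hL₁, h1⟩ := sphere_step hn (toW h) hp
  obtain ⟨L₂, hL₂, h2⟩ := sphere_step hn (toW h.swap) hq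
  have hsub := weakSub_posPart hwc hws hlap
  have key : ∀ R : ℝ, 0 < R → sqn x₀ ≤ R ^ 2 →
      L₂ * R ^ (2 + (0 : ℝ)) * (L₁ * R ^ (2 + (0 : ℝ))) ^ q * (c * w x₀) ^ (p * q - 1) ≤ 1 := by
    intro R hR hR0
    have hne : ({y : Fin n → ℝ | sqn y = R ^ 2}).Nonempty :=
      let ⟨y, _, hy⟩ := exists_sqn_eq (by omega : 0 < n) (sq_pos_of_pos hR); ⟨y, hy⟩
    have hcp : IsCompact {y : Fin n → ℝ | sqn y = R ^ 2} :=
      (Weighted.isCompact_ball_sqn 0 (R ^ 2)).of_isClosed_subset
        (isClosed_eq contDiff_sqn.continuous continuous_const) fun y (hy : sqn y = R ^ 2) => by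
          simp [hy]
    obtain ⟨y₀, hy₀, hmin⟩ := hcp.exists_isMinOn hne h.cont_v.continuousOn
    have hA : c * w x₀ ≤ v y₀ := by
      have e1 := le_avg hn (hwc.max continuous_const) hsub x₀ hR
      have e2 : avg (fun x => max (w x) 0) x₀ R ≤ avg v x₀ R := by
        refine integral_mono ?_ ?_ fun z => mul_le_mul_of_nonneg_right
          (max_le ?_ (h.pos_v _).le) (ker_nonneg z)
        · exact ((hwc.max continuous_const).comp (by fun_prop) |>.mul continuous_ker
            ).integrable_of_hasCompactSupport hasCompactSupport_ker.mul_left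
        · exact (h.cont_v.comp (by fun_prop) |>.mul continuous_ker
            ).integrable_of_hasCompactSupport hasCompactSupport_ker.mul_left
        · have := mul_pos hl0 (Real.rpow_pos_of_pos (h.pos_u (x₀ + R • z)) σ)
          simp only [hw]; linarith
      have e3 := avg_le_sphere hn h hR hR0 hy₀
      have e4 : max (w x₀) 0 = w x₀ := max_eq_left hpos.le
      beta_reduce at e1
      rw [e4] at e1
      refine le_of_mul_le_mul_right ?_ hK0
      rw [mul_assoc]
      exact (mul_le_mul_of_nonneg_left (e1.trans e2) hc0.le).trans e3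
    have hcw : 0 < c * w x₀ := mul_pos hc0 hpos
    have hmu : 0 < L₁ * R ^ (2 + (0 : ℝ)) * v y₀ ^ p := by
      have := h.pos_v y₀
      positivity
    have hb := h2 R hR _ hmu (fun y hy => h1 R hR _ (h.pos_v y₀) (fun z hz => hmin hz) y hy) y₀ hy₀
    rw [Real.mul_rpow (by positivity) (Real.rpow_nonneg (h.pos_v y₀).le _),
      ← Real.rpow_mul (h.pos_v y₀).le] at hb
    have hm := h.pos_v y₀
    have hA' : (c * w x₀) ^ (p * q - 1) ≤ v y₀ ^ (p * q - 1) :=
      Real.rpow_le_rpow hcw.le hA (by linarith)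
    refine le_trans (mul_le_mul_of_nonneg_left hA' (by positivity)) ?_
    rw [Real.rpow_sub_one hm.ne', mul_div_assoc', div_le_one hm]
    linarith
  set M := L₂ * L₁ ^ q * (c * w x₀) ^ (p * q - 1) with hM
  have hM0 : 0 < M := by have := mul_pos hc0 hpos; positivity
  set R := 1 + sqn x₀ + 1 / M with hR
  have hM1 : 0 < 1 / M := by positivity
  have hR1 : 1 ≤ R := by linarith [sqn_nonneg x₀]
  have hk := key R (by linarith) (by nlinarith [sqn_nonneg x₀])
  rw [add_zero, Real.mul_rpow hL₁.le (by positivity), Real.rpow_two] at hk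
  have hq1 : 1 ≤ (R ^ 2) ^ q := Real.one_le_rpow (by nlinarith) hq.le
  have hbig : 1 < R ^ 2 * M := by
    calc (1 : ℝ) = (1 / M) * M := by field_simp
      _ < R ^ 2 * M := mul_lt_mul_of_pos_right (by nlinarith [sqn_nonneg x₀]) hM0
  have : R ^ 2 * M ≤ 1 := by
    refine le_trans ?_ hk
    calc R ^ 2 * M = L₂ * R ^ 2 * (L₁ ^ q * 1) * (c * w x₀) ^ (p * q - 1) := by rw [hM]; ring
      _ ≤ _ := by gcongr
  linarith

/-- The same bound for `η = v^(p+1)/u^(q+1)`. -/
theorem eta_le (hn : 3 ≤ n) (h : IsSol p q u v) (hq : 0 < q) (hqp : q ≤ p) (hpq : 1 < p * q)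
    (x : Fin n → ℝ) : v x ^ (p + 1) / u x ^ (q + 1) ≤ (p + 1) / (q + 1) := by
  have hc := comparison hn h hq hqp hpq x
  rw [div_le_div_iff₀ (by linarith) (by linarith)] at hc
  rw [div_le_div_iff₀ (Real.rpow_pos_of_pos (h.pos_u x) _) (by linarith)]
  linarith

end Vale.Agent.P100.Eta
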