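import Vale.Agent.P100.Assembly
import Vale.Agent.P100.Eta.Compare

/-!
# P100: certificates whose coefficients are functions of `η = v^(p+1)/u^(q+1)`

For `q ≤ p` the comparison gives `η ∈ (0, (p+1)/(q+1)]`, so coefficients bounded on that interval
are enough for the cut-off argument. The pointwise condition may use `s = η t`, where `s = v^p/u`
and `t = u^q/v`.
-/

namespace Vale.Agent.P100.Eta

open Set Filter Topology MeasureTheory
open Vale.Agent.P252 (pd continuous_pd)

variable {n : ℕ} {p q A B : ℝ} {u v : (Fin n → ℝ) → ℝ}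

/-- A good field times a `C¹` function is a good field. -/
theorem good_smul {X : Fin n → (Fin n → ℝ) → ℝ} {D : (Fin n → ℝ) → ℝ} (h : GoodField X D)
    {φ : (Fin n → ℝ) → ℝ} (hφ : ContDiffOn ℝ 1 φ (punctured n)) :
    GoodField (fun i x => φ x * X i x) (fun x => φ x * D x + ∑ i, pd i φ x * X i x) where
  contX i := hφ.continuousOn.mul (h.contX i)
  contD := (hφ.continuousOn.mul h.contD).add (continuousOn_finsetSum _ fun i _ =>
    ((hφ.continuousOn_fderiv_of_isOpen isOpen_punctured le_rfl).clm_apply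
      continuousOn_const).mul (h.contX i))
  weak η hη hc hs := by
    refine Eq.trans (integral_congr_ae (Eventually.of_forall fun x => ?_))
      (h.weak (fun x => η x * φ x) (contDiff_mul_ext isOpen_punctured hη hs hφ) hc.mul_right
        (tsupport_mul_subset_left.trans hs))
    by_cases hx : x ∈ tsupport η
    · simp only [pd_mul_at ((hη.differentiable one_ne_zero) x) (diffAt hφ (hs hx)), add_mul,
        Finset.sum_add_distrib, mul_add, Finset.mul_sum, mul_assoc]
      ring
    · have hx' : x ∉ tsupport fun y => η y * φ y := fun h' => hx (tsupport_mul_subset_left h')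
      simp [pd_eq_zero_off hx, pd_eq_zero_off hx', image_eq_zero_of_notMem_tsupport hx]

/-- `v^(p+1)/u^(q+1)`. -/
noncomputable def eta (p q : ℝ) (u v : (Fin n → ℝ) → ℝ) (x : Fin n → ℝ) : ℝ :=
  v x ^ (p + 1) / u x ^ (q + 1)

theorem eta_pos (h : IsSol p q u v) (x : Fin n → ℝ) : 0 < eta p q u v x :=
  div_pos (Real.rpow_pos_of_pos (h.pos_v x) _) (Real.rpow_pos_of_pos (h.pos_u x) _)

theorem contDiffOn_eta (h : IsSol p q u v) : ContDiffOn ℝ 1 (eta p q u v) (punctured n) :=
  ((h.smooth_v.of_le one_le_two).rpow_const_of_ne fun x _ => (h.pos_v x).ne').div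
    ((h.smooth_u.of_le one_le_two).rpow_const_of_ne fun x _ => (h.pos_u x).ne')
    fun x _ => (Real.rpow_pos_of_pos (h.pos_u x) _).ne'

theorem pd_eta (h : IsSol p q u v) {x : Fin n → ℝ} (hx : x ∈ punctured n) (i : Fin n) :
    pd i (eta p q u v) x =
      eta p q u v x * ((p + 1) * ja v x i - (q + 1) * ja u x i) := by
  have h1 := diffAt (h.smooth_u.of_le one_le_two) hx
  have h2 := diffAt (h.smooth_v.of_le one_le_two) hx
  have hu := Real.rpow_pos_of_pos (h.pos_u x) (q + 1)
  change pd i (fun y => v y ^ (p + 1) / u y ^ (q + 1)) x = _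
  rw [pd_div_at (h2.rpow_const (Or.inl (h.pos_v x).ne')) (h1.rpow_const (Or.inl (h.pos_u x).ne'))
    hu.ne', pd_rpow_at h2 (h.pos_v x), pd_rpow_at h1 (h.pos_u x)]
  simp only [eta, ja]
  field_simp

theorem js_eq_eta (h : IsSol p q u v) (x : Fin n → ℝ) :
    js p u v x = eta p q u v x * js q v u x := by
  have hu := h.pos_u x
  have hv := h.pos_v x
  have := Real.rpow_pos_of_pos hu q
  rw [eta, js, js, Real.rpow_add_one hv.ne', Real.rpow_add_one hu.ne']
  field_simp

/-- The condition on a certificate with coefficients `c k η`. -/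
def IsEtaCert (n : ℕ) (p q A B δ : ℝ) (c : Fin 14 → ℝ → ℝ) : Prop :=
  ∀ (e : ℝ) (a b : Fin n → ℝ) (P Q : Fin n → Fin n → ℝ) (s t : ℝ),
    0 < e → e ≤ (p + 1) / (q + 1) → s = e * t →
    (∀ i j, P i j = P j i) → (∀ i j, Q i j = Q j i) → ∑ i, P i i = -s → ∑ i, Q i i = -t →
    0 < s → 0 < t →
      δ * energy a b P Q s t ≤ jetDiv p q A B (fun k => c k e) a b P Q s t +
        ∑ k, e * deriv (c k) e *
          dotv (fun i => (p + 1) * b i - (q + 1) * a i) (fun i => jetField a b P Q s t i k)

/-- Nonexistence from a certificate with coefficients depending on `η`. -/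
theorem no_solution_of_eta_cert (hn : 4 < n) (hq : 0 < q) (hqp : q ≤ p) (hpq : 1 < p * q)
    (hA : 0 ≤ A + q * B) (hB : 0 ≤ p * A + B)
    (hk : (n : ℝ) < 4 + 2 * ((A * (p + 1) + B * (q + 1)) / (p * q - 1))) {δ : ℝ} (hδ : 0 < δ)
    {c : Fin 14 → ℝ → ℝ} (hc : ∀ k, ContDiffOn ℝ 1 (c k) (Ioi 0)) {Cb : ℝ}
    (hb : ∀ k e, 0 < e → e ≤ (p + 1) / (q + 1) → |c k e| ≤ Cb)
    (hcert : IsEtaCert n p q A B δ c) :
    ¬ ∃ u v : (Fin n → ℝ) → ℝ, IsSol p q u v := by
  rintro ⟨u, v, h⟩
  set κ := (A * (p + 1) + B * (q + 1)) / (p * q - 1) with hκ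
  have hκ0 : 0 ≤ κ := by
    rw [hκ]; exact div_nonneg (by nlinarith) (by linarith)
  set η := eta p q u v with hη
  set φ := fun k x => c k (η x) with hφ
  have hηs : ∀ x, η x ≤ (p + 1) / (q + 1) := eta_le (by omega) h hq hqp hpq
  have hφs : ∀ k, ContDiffOn ℝ 1 (φ k) (punctured n) := fun k =>
    (hc k).comp (contDiffOn_eta h) fun x _ => eta_pos h x
  have hφd : ∀ k, ∀ x ∈ punctured n, ∀ i, pd i (φ k) x =
      η x * deriv (c k) (η x) * ((p + 1) * ja v x i - (q + 1) * ja u x i) := fun k x hx i => by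
    have h1 := (((hc k).contDiffAt (Ioi_mem_nhds (eta_pos h x))).differentiableAt
      one_ne_zero).hasDerivAt
    have e := (h1.comp_hasFDerivAt x (diffAt (contDiffOn_eta h) hx).hasFDerivAt).fderiv
    have e' := pd_eta h hx i
    simp only [pd] at e'
    rw [pd, show φ k = c k ∘ eta p q u v from rfl, e]
    simp [hη, e']
    ring
  set X := fun (i : Fin n) x => ∑ k, φ k x * solField p q A B u v k i x with hX
  set D := fun x => ∑ k, (φ k x * solDiv p q A B u v k x +
    ∑ i, pd i (φ k) x * solField p q A B u v k i x) with hD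
  have hG : GoodField X D :=
    (GoodField.combine (fun k => good_smul (good_field (A := A) (B := B) h k) (hφs k))
      (fun _ => 1)).congr (fun x _ i => by simp [hX]) fun x _ => by simp [hD]
  set K := Fintype.card (Fin 14) * |Cb| * n with hK
  have hF0 : ∀ x, 0 ≤ certDensity p q A B u v x := fun x => mul_nonneg (wt_pos h x).le
    ((sq_nonneg _).trans (energy_ge _ _ _ _ _ _).1)
  set C := max 1 (K ^ 4) with hC
  obtain ⟨Bd, hBd⟩ := (isCompact_Icc (a := fun _ : Fin n => (-2 : ℝ))
    (b := fun _ => 2)).exists_bound_of_continuousOn (f := wt A B u v)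
    (((h.cont_u.rpow_const fun x => Or.inl (h.pos_u x).ne').mul
      (h.cont_v.rpow_const fun x => Or.inl (h.pos_v x).ne'))).continuousOn
  have hWF : ∀ x ∈ punctured n,
      wt A B u v x ≤ C * certDensity p q A B u v x ^ (κ / (κ + 2)) := fun x _ =>
    (wt_le_density h hpq hA hB x hκ).trans
      (le_mul_of_one_le_left (Real.rpow_nonneg (hF0 x) _) (le_max_left _ _))
  have hXF : ∀ x ∈ punctured n, ∀ i, X i x ^ 4 ≤
      C * (certDensity p q A B u v x ^ 3 * wt A B u v x) := fun x _ i => by
    set G := energy (ja u x) (ja v x) (jP u x) (jP v x) (js p u v x) (js q v u x) with hGe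
    have hG0 : 0 ≤ G := (sq_nonneg _).trans (energy_ge _ _ _ _ _ _).1
    set m := Real.sqrt (Real.sqrt G) with hm
    have hW0 : 0 < wt A B u v x := wt_pos h x
    have hle : |X i x| ≤ K * (wt A B u v x * m ^ 3) := by
      refine (Finset.abs_sum_le_sum_abs _ _).trans ?_
      refine (Finset.sum_le_sum (g := fun _ => |Cb| * (wt A B u v x * (n * m ^ 3)))
        fun k _ => ?_).trans_eq (by simp [hK]; ring)
      rw [abs_mul, solField, abs_mul, abs_of_pos hW0]
      exact mul_le_mul ((hb k _ (eta_pos h x) (hηs x)).trans (le_abs_self _))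
        (mul_le_mul_of_nonneg_left (jetField_bound _ _ _ _ _ _ i k) hW0.le) (by positivity)
        (abs_nonneg _)
    have hm4 : m ^ 4 = G := by
      rw [show m ^ 4 = (m ^ 2) ^ 2 by ring, Real.sq_sqrt (Real.sqrt_nonneg _), Real.sq_sqrt hG0]
    calc X i x ^ 4 = |X i x| ^ 4 := (pow4_abs _).symm
      _ ≤ (K * (wt A B u v x * m ^ 3)) ^ 4 := pow_le_pow_left₀ (abs_nonneg _) hle 4
      _ = K ^ 4 * ((wt A B u v x * m ^ 4) ^ 3 * wt A B u v x) := by ring
      _ ≤ C * ((wt A B u v x * m ^ 4) ^ 3 * wt A B u v x) :=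
          mul_le_mul_of_nonneg_right (le_max_right _ _) (by positivity)
      _ = _ := by rw [hm4]; rfl
  have hDF : ∀ x ∈ punctured n, δ * certDensity p q A B u v x ≤ D x := fun x hx => by
    have htr : ∀ {f g : (Fin n → ℝ) → ℝ} {r : ℝ}, lap f x = -(g x ^ r) →
        ∑ i, jP f x i i = -js r f g x := fun hl => by
      rw [js, ← neg_div, ← hl]
      simp only [jP, lap, Finset.sum_div]
    have hc' := hcert (η x) (ja u x) (ja v x) (jP u x) (jP v x) (js p u v x) (js q v u x)
      (eta_pos h x) (hηs x) (js_eq_eta h x)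
      (fun i j => by simp only [jP]; rw [pd_pd_comm isOpen_punctured h.smooth_u hx])
      (fun i j => by simp only [jP]; rw [pd_pd_comm isOpen_punctured h.smooth_v hx])
      (htr (h.eq_u x hx)) (htr (h.eq_v x hx)) (js_pos h x) (js_pos h.swap x)
    calc δ * certDensity p q A B u v x
        = wt A B u v x * (δ * energy (ja u x) (ja v x) (jP u x) (jP v x) (js p u v x)
            (js q v u x)) := by rw [certDensity]; ring
      _ ≤ _ := mul_le_mul_of_nonneg_left hc' (wt_pos h x).le
      _ = D x := by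
          have e : ∀ k, ∑ i, pd i (φ k) x * solField p q A B u v k i x = ∑ i, η x *
              deriv (c k) (η x) * ((p + 1) * ja v x i - (q + 1) * ja u x i) *
                solField p q A B u v k i x := fun k =>
            Finset.sum_congr rfl fun i _ => by rw [hφd k x hx]
          simp only [hD, e]
          simp only [hφ, solDiv, solField, jetDiv, dotv, Finset.mul_sum,
            ← Finset.sum_add_distrib, mul_add]
          exact Finset.sum_congr rfl fun k _ => by
            congr 1
            · ring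
            · exact Finset.sum_congr rfl fun i _ => by ring
  have h0 := no_certificate hn (θ := κ / (κ + 2)) (by positivity)
    (by rw [div_lt_one (by linarith)]; linarith)
    (by rw [one_sub_div (by linarith : κ + 2 ≠ 0), mul_div_assoc', div_lt_iff₀ (by linarith)]
        linarith)
    hδ (le_max_of_le_left zero_le_one) (continuousOn_certDensity h)
    (contDiffOn_wt h).continuousOn hG.contD hG.contX (fun x _ => hF0 x)
    (fun x _ => (wt_pos h x).le)
    (fun x _ hx => (le_abs_self _).trans (hBd x (by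
      have h2 := fun i => abs_le.1 (abs_le_of_sqn_le (r := 2) (by norm_num) (by linarith) i)
      exact ⟨fun i => (h2 i).1, fun i => (h2 i).2⟩))) hWF hXF hDF hG.weak
  have hx : (fun _ => 1 : Fin n → ℝ) ∈ punctured n := fun he =>
    one_ne_zero (congrFun (Set.mem_singleton_iff.1 he) ⟨0, by omega⟩)
  exact (mul_pos (wt_pos h _) (lt_of_lt_of_le (pow_pos (js_pos h _) 2)
    (energy_ge _ _ _ _ _ _).1)).ne' (h0 _ hx)

end Vale.Agent.P100.Eta
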