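import Vale.Agent.P100.Weak

/-!
# P100: kernel means of weakly subharmonic functions

`f` is continuous on the whole space and weakly subharmonic off the origin. A point is removable
for `3 ≤ n`, and the means `t⁻ⁿ ∫ f(x) k((x - x₀)/t)` with the kernel `k(z) = 6 (1 - |z|²)₊²`
increase in `t`; so `f(x₀) ∫ k` is at most each of them.
-/

namespace Vale.Agent.P100.Eta

open Set Filter Topology MeasureTheory
open Vale.Agent.P252 (pd continuous_pd posPow hasDerivAt_posPow contDiff_posPow)

variable {n : ℕ}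

/-- A test function: `C¹` with `C¹` partial derivatives. -/
def Test (η : (Fin n → ℝ) → ℝ) : Prop := ContDiff ℝ 1 η ∧ ∀ i, ContDiff ℝ 1 (pd i η)

theorem Test.continuous_lap {η : (Fin n → ℝ) → ℝ} (h : Test η) : Continuous (lap η) := by
  unfold lap
  exact continuous_finsetSum _ fun i _ => continuous_pd (h.2 i) i

/-- Weakly subharmonic off the origin. -/
def WeakSub (f : (Fin n → ℝ) → ℝ) : Prop :=
  ∀ η, Test η → HasCompactSupport η → tsupport η ⊆ punctured n → (∀ x, 0 ≤ η x) →
    0 ≤ ∫ x, f x * lap η x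

/-- Green's identity against a test function. -/
theorem weak_lap {f η : (Fin n → ℝ) → ℝ} (hf : ContDiffOn ℝ 2 f (punctured n)) (hη : Test η)
    (hc : HasCompactSupport η) (hs : tsupport η ⊆ punctured n) :
    ∫ x, f x * lap η x = ∫ x, η x * lap f x := by
  have hO := isOpen_punctured (n := n)
  have h1 := weak_div hO hη.1 hc hs (fun i => contDiffOn_pd hO hf i)
  have hs' : ∀ i, tsupport (pd i η) ⊆ tsupport η := fun i =>
    closure_minimal (fun x hx => by_contra fun h => hx (pd_eq_zero_off h i)) (isClosed_tsupport η)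
  have hc' : ∀ i, HasCompactSupport (pd i η) := fun i =>
    Vale.Agent.P252.hasCompactSupport_pd hc i
  have cf : ∀ i, ContinuousOn (pd i f) (punctured n) :=
    fun i => (contDiffOn_pd hO hf i).continuousOn
  have cl : ∀ i, ContinuousOn (pd i (pd i f)) (punctured n) := fun i =>
    ((contDiffOn_pd hO hf i).continuousOn_fderiv_of_isOpen hO le_rfl).clm_apply continuousOn_const
  have i1 : Integrable fun x => η x * lap f x := integrable_of_zero_off
    (hη.1.continuous.continuousOn.mul (continuousOn_finsetSum _ fun i _ => cl i)) hc.isCompact hs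
    fun x hx => by simp [image_eq_zero_of_notMem_tsupport hx]
  have i2 : ∀ i, Integrable fun x => pd i η x * pd i f x := fun i => integrable_of_zero_off
    ((continuous_pd hη.1 i).continuousOn.mul (cf i)) hc.isCompact hs fun x hx => by
      simp [pd_eq_zero_off hx]
  have i3 : ∀ i, Integrable fun x => pd i (pd i η) x * f x := fun i => integrable_of_zero_off
    ((continuous_pd (hη.2 i) i).continuousOn.mul hf.continuousOn) hc.isCompact hs fun x hx => by
      simp [pd_eq_zero_off (fun h => hx (hs' i h))]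
  have h2 : ∀ i, (∫ x, pd i η x * pd i f x) + ∫ x, pd i (pd i η) x * f x = 0 := fun i => by
    have h := weak_div hO (hη.2 i) (hc' i) ((hs' i).trans hs)
      (Y := fun j y => (if j = i then (1 : ℝ) else 0) * f y)
      (fun j => contDiffOn_const.mul (hf.of_le one_le_two))
    rw [← integral_add (i2 i) (i3 i)]
    refine (integral_congr_ae (Eventually.of_forall fun x => ?_)).trans h
    have e : ∀ j, pd j (fun y => (if j = i then (1 : ℝ) else 0) * f y) x =
        if j = i then pd i f x else 0 := fun j => by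
      rcases eq_or_ne j i with h | h
      · subst h; simp
      · simp [h, pd]
    rw [Finset.sum_congr rfl fun j _ => e j]
    simp only [Finset.sum_ite_eq', Finset.mem_univ, ↓reduceIte, ite_mul, one_mul, zero_mul,
      mul_ite, mul_zero]
  change ∫ x, (η x * lap f x + ∑ i, pd i η x * pd i f x) = 0 at h1
  rw [integral_add i1 (integrable_finsetSum _ fun i _ => i2 i),
    integral_finsetSum _ fun i _ => i2 i] at h1
  have e : ∫ x, f x * lap η x = ∑ i, ∫ x, pd i (pd i η) x * f x := by
    rw [← integral_finsetSum _ fun i _ => i3 i]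
    exact integral_congr_ae (Eventually.of_forall fun x => by
      simp [lap, Finset.mul_sum, mul_comm])
  rw [e, Finset.sum_congr rfl fun i _ => eq_neg_of_add_eq_zero_right (h2 i),
    Finset.sum_neg_distrib]
  linarith

theorem deriv2_transition_bdd :
    ∃ T : ℝ, 0 ≤ T ∧ ∀ t, |deriv (deriv Real.smoothTransition) t| ≤ T := by
  have h : ContDiff ℝ 1 (deriv Real.smoothTransition) :=
    (Real.smoothTransition.contDiff (n := 2)).deriv'
  have hs : HasCompactSupport (deriv Real.smoothTransition) :=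
    HasCompactSupport.intro (isCompact_Icc (a := (0 : ℝ)) (b := 1)) fun t ht =>
      deriv_transition_eq_zero ((not_and_or.1 ht).imp (fun h => (not_le.1 h).le)
        fun h => (not_le.1 h).le)
  obtain ⟨T, hT⟩ := hs.deriv.exists_bound_of_continuous (h.continuous_deriv le_rfl)
  exact ⟨T, (norm_nonneg _).trans (hT 0), hT⟩

theorem inner'_test {ρ : ℝ} (x : Fin n → ℝ) (i : Fin n) :
    ContDiff ℝ 1 (pd i (inner' (n := n) ρ)) ∧ pd i (pd i (inner' ρ)) x =
      deriv (deriv Real.smoothTransition) (sqn x / ρ ^ 2 - 1) * (2 * x i / ρ ^ 2) ^ 2 +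
        deriv Real.smoothTransition (sqn x / ρ ^ 2 - 1) * (2 / ρ ^ 2) := by
  have hT : ContDiff ℝ 1 (deriv Real.smoothTransition) :=
    (Real.smoothTransition.contDiff (n := 2)).deriv'
  have e : pd i (inner' ρ) = fun y : Fin n → ℝ =>
      deriv Real.smoothTransition (sqn y / ρ ^ 2 - 1) * (2 * y i / ρ ^ 2) :=
    funext fun y => pd_inner' ρ y i
  rw [e]
  refine ⟨(hT.comp ((contDiff_sqn.div_const _).sub contDiff_const)).mul (by fun_prop), ?_⟩
  have h1 : HasFDerivAt (fun y => sqn y / ρ ^ 2 - 1) ((ρ ^ 2)⁻¹ • fderiv ℝ sqn x) x := by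
    simpa [div_eq_mul_inv, mul_comm] using
      (((contDiff_sqn.differentiable one_ne_zero) x).hasFDerivAt.const_mul (ρ ^ 2)⁻¹).sub_const 1
  have h2 := ((hT.differentiable one_ne_zero) (sqn x / ρ ^ 2 - 1)).hasDerivAt.comp_hasFDerivAt x h1
  have h3 : HasFDerivAt (fun y : Fin n → ℝ => 2 * y i / ρ ^ 2)
      ((2 / ρ ^ 2) • ContinuousLinearMap.proj (R := ℝ) (φ := fun _ : Fin n => ℝ) i) x := by
    rw [show (fun y : Fin n → ℝ => 2 * y i / ρ ^ 2) = fun y => 2 / ρ ^ 2 * y i from
      funext fun y => by ring]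
    exact (ContinuousLinearMap.proj (R := ℝ) (φ := fun _ : Fin n => ℝ) i).hasFDerivAt.const_mul
        (2 / ρ ^ 2)
  have h := (h2.fun_mul h3).fderiv
  simp only [Function.comp_def] at h
  have hs : fderiv ℝ sqn x (Pi.single i 1) = 2 * x i := pd_sqn x i
  rw [pd, h]
  simp [hs]
  ring

theorem lap_eq_zero_off {η : (Fin n → ℝ) → ℝ} {x : Fin n → ℝ} (hx : x ∉ tsupport η) :
    lap η x = 0 := by
  refine Finset.sum_eq_zero fun i _ => ?_
  have hs : tsupport (pd i η) ⊆ tsupport η :=
    closure_minimal (fun y hy => by_contra fun h => hy (pd_eq_zero_off h i)) (isClosed_tsupport η)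
  exact pd_eq_zero_off (fun h => hx (hs h)) i

/-- A point is removable. -/
theorem weakSub_test (hn : 3 ≤ n) {f η : (Fin n → ℝ) → ℝ} (hf : Continuous f) (hs : WeakSub f)
    (hη : Test η) (hc : HasCompactSupport η) (h0 : ∀ x, 0 ≤ η x) :
    0 ≤ ∫ x, f x * lap η x := by
  obtain ⟨T₁, hT₁0, hT₁⟩ := deriv_transition_bdd
  obtain ⟨T₂, hT₂0, hT₂⟩ := deriv2_transition_bdd
  obtain ⟨Cf, hCf⟩ := (isCompact_Icc (a := fun _ : Fin n => -(2 : ℝ)) (b := fun _ => 2)
    ).exists_bound_of_continuousOn hf.continuousOn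
  obtain ⟨Cη, hCη⟩ := hc.exists_bound_of_continuous hη.1.continuous
  have hd := fun i => (Vale.Agent.P252.hasCompactSupport_pd hc i).exists_bound_of_continuous
    (continuous_pd hη.1 i)
  choose Cd hCd using hd
  have hcl : HasCompactSupport (lap η) :=
    HasCompactSupport.intro hc.isCompact fun x hx => lap_eq_zero_off hx
  obtain ⟨Cl, hCl⟩ := hcl.exists_bound_of_continuous hη.continuous_lap
  have hCη0 : 0 ≤ Cη := (norm_nonneg _).trans (hCη 0)
  have hCd0 : ∀ i, 0 ≤ Cd i := fun i => (norm_nonneg _).trans (hCd i 0)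
  have hCl0 : 0 ≤ Cl := (norm_nonneg _).trans (hCl 0)
  have hCf0 : 0 ≤ Cf := (norm_nonneg _).trans (hCf 0 ⟨fun i => by simp, fun i => by simp⟩)
  set B := Cf * (2 * Cl + ∑ i, (8 * T₁ * Cd i + Cη * (16 * T₂ + 2 * T₁))) with hB
  have hB0 : 0 ≤ B := mul_nonneg hCf0 (add_nonneg (by positivity)
    (Finset.sum_nonneg fun i _ => by have := hCd0 i; positivity))
  have key : ∀ ρ : ℝ, 0 < ρ → ρ ≤ 1 → -(B * 4 ^ n * ρ) ≤ ∫ x, f x * lap η x := by
    intro ρ hρ hρ1
    set z := inner' (n := n) ρ with hz
    have hzT : Test z := ⟨contDiff_inner' ρ, fun i => (inner'_test 0 i).1⟩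
    have hp : ∀ i x, pd i (fun y => η y * z y) x = pd i η x * z x + η x * pd i z x := fun i x =>
      pd_mul_at ((hη.1.differentiable one_ne_zero) x) ((hzT.1.differentiable one_ne_zero) x) i
    have hT : Test fun y => η y * z y := ⟨hη.1.mul hzT.1, fun i => by
      rw [show pd i (fun y => η y * z y) = fun x => pd i η x * z x + η x * pd i z x from
        funext (hp i)]
      exact ((hη.2 i).mul hzT.1).add (hη.1.mul (hzT.2 i))⟩
    have hl : ∀ x, lap (fun y => η y * z y) x = lap η x * z x +
        ∑ i, (2 * (pd i η x * pd i z x) + η x * pd i (pd i z) x) := fun x => by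
      simp only [lap, Finset.sum_mul, ← Finset.sum_add_distrib]
      refine Finset.sum_congr rfl fun i _ => ?_
      have d : ∀ {k : (Fin n → ℝ) → ℝ}, ContDiff ℝ 1 k → DifferentiableAt ℝ k x := fun hk =>
        (hk.differentiable one_ne_zero) x
      rw [show pd i (fun y => η y * z y) = fun y => pd i η y * z y + η y * pd i z y from
        funext (hp i)]
      have e : pd i (fun y => pd i η y * z y + η y * pd i z y) x =
          pd i (fun y => pd i η y * z y) x + pd i (fun y => η y * pd i z y) x := by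
        rw [pd, fderiv_fun_add ((d (hη.2 i)).fun_mul (d hzT.1))
          ((d hη.1).fun_mul (d (hzT.2 i)))]
        rfl
      rw [e, pd_mul_at (d (hη.2 i)) (d hzT.1), pd_mul_at (d hη.1) (d (hzT.2 i))]
      ring
    have hsup : tsupport (fun y => η y * z y) ⊆ punctured n := by
      refine (closure_minimal (t := {x | ρ ^ 2 ≤ sqn x}) (fun x hx => ?_)
        (isClosed_le continuous_const contDiff_sqn.continuous)).trans fun x hx h0 => ?_
      · by_contra hlt
        refine hx ?_
        have : z x = 0 := Real.smoothTransition.zero_of_nonpos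
          (by rw [sub_nonpos, div_le_one (by positivity)]; exact (not_le.1 hlt).le)
        simp [this]
      · rw [Set.mem_singleton_iff.1 h0] at hx
        simp [sqn] at hx
        nlinarith
    have h1 := hs _ hT hc.mul_right hsup fun x =>
      mul_nonneg (h0 x) (Real.smoothTransition.nonneg _)
    set g := fun x => f x * lap (fun y => η y * z y) x - f x * lap η x with hg
    have ia : Integrable fun x => f x * lap η x :=
      (hf.mul hη.continuous_lap).integrable_of_hasCompactSupport hcl.mul_left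
    have hl' : HasCompactSupport (lap fun y => η y * z y) := HasCompactSupport.intro hc.isCompact
      fun x hx => by
        have e0 := image_eq_zero_of_notMem_tsupport hx
        rw [hl, lap_eq_zero_off hx]
        simp [e0, pd_eq_zero_off hx]
    have ib : Integrable fun x => f x * lap (fun y => η y * z y) x :=
      (hf.mul hT.continuous_lap).integrable_of_hasCompactSupport hl'.mul_left
    have hgi : Integrable g := ib.sub ia
    have hz1 : ∀ x, 4 * ρ ^ 2 < sqn x →
        z x = 1 ∧ ∀ i, pd i z x = 0 ∧ pd i (pd i z) x = 0 := fun x hx => by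
      have h1 : 1 ≤ sqn x / ρ ^ 2 - 1 := by
        rw [le_sub_iff_add_le, le_div_iff₀ (by positivity)]; nlinarith
      refine ⟨Real.smoothTransition.one_of_one_le h1, fun i =>
        ⟨(pd_inner'_bound hT₁0 hT₁ hρ x i).2 hx, ?_⟩⟩
      have hev : pd i z =ᶠ[𝓝 x] fun _ => 0 :=
        eventually_of_mem ((isOpen_lt continuous_const contDiff_sqn.continuous).mem_nhds hx)
          fun y hy => (pd_inner'_bound hT₁0 hT₁ hρ y i).2 hy
      rw [pd_congr_at hev]
      simp [pd]
    have hb : ∀ x, sqn x ≤ (2 * ρ) ^ 2 → g x ≤ B / ρ ^ 2 := fun x hx => by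
      have hxI : x ∈ Icc (fun _ : Fin n => -(2 : ℝ)) (fun _ => 2) := by
        have h := fun i => abs_le.1 (abs_le_of_sqn_le (by linarith) hx i)
        exact ⟨fun i => by linarith [(h i).1], fun i => by linarith [(h i).2]⟩
      have hz01 : |z x - 1| ≤ 1 := abs_le.2 ⟨by
        linarith [Real.smoothTransition.nonneg (sqn x / ρ ^ 2 - 1),
          show z x = Real.smoothTransition (sqn x / ρ ^ 2 - 1) from rfl], by
        linarith [Real.smoothTransition.le_one (sqn x / ρ ^ 2 - 1),
          show z x = Real.smoothTransition (sqn x / ρ ^ 2 - 1) from rfl]⟩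
      have hρ2 : ρ ^ 2 ≤ 1 := pow_le_one₀ hρ.le hρ1
      have t1 : |lap η x * (z x - 1)| ≤ 2 * Cl / ρ ^ 2 := by
        rw [abs_mul, le_div_iff₀ (by positivity)]
        have := mul_le_mul (hCl x) hz01 (abs_nonneg _) hCl0
        rw [Real.norm_eq_abs] at this
        nlinarith [mul_le_mul_of_nonneg_left hρ2 (mul_nonneg (abs_nonneg (lap η x))
          (abs_nonneg (z x - 1)))]
      have t2 : ∀ i, |2 * (pd i η x * pd i z x) + η x * pd i (pd i z) x| ≤
          (8 * T₁ * Cd i + Cη * (16 * T₂ + 2 * T₁)) / ρ ^ 2 := fun i => by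
        refine (abs_add_le _ _).trans ?_
        rw [add_div]
        refine add_le_add ?_ ?_
        · rw [abs_mul, abs_mul, abs_two]
          calc 2 * (|pd i η x| * |pd i z x|) ≤ 2 * (Cd i * (4 * T₁ / ρ)) := by
                refine mul_le_mul_of_nonneg_left (mul_le_mul (hCd i x)
                  (pd_inner'_bound hT₁0 hT₁ hρ x i).1 (abs_nonneg _) (hCd0 i)) two_pos.le
            _ ≤ 8 * T₁ * Cd i / ρ ^ 2 := by
                rw [le_div_iff₀ (by positivity)]
                field_simp
                nlinarith [mul_le_mul_of_nonneg_left hρ1 (mul_nonneg hT₁0 (hCd0 i))]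
        · rw [abs_mul, mul_div_assoc]
          refine mul_le_mul (hCη x) ?_ (abs_nonneg _) hCη0
          rw [(inner'_test x i).2]
          refine (abs_add_le _ _).trans ?_
          rw [add_div, abs_mul, abs_mul, abs_pow, abs_div, abs_div, abs_mul, abs_two,
            abs_of_pos (by positivity : 0 < ρ ^ 2)]
          refine add_le_add ?_ ((mul_le_mul_of_nonneg_right (hT₁ _) (by positivity)).trans_eq
            (by ring))
          have hxi := abs_le_of_sqn_le (by linarith) hx i
          calc |deriv (deriv Real.smoothTransition) (sqn x / ρ ^ 2 - 1)| * (2 * |x i| / ρ ^ 2) ^ 2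
              ≤ T₂ * (2 * (2 * ρ) / ρ ^ 2) ^ 2 :=
                mul_le_mul (hT₂ _) (by gcongr) (by positivity) hT₂0
            _ = 16 * T₂ / ρ ^ 2 := by field_simp; ring
      refine (le_abs_self _).trans ?_
      simp only [hg, hl, ← mul_sub]
      rw [abs_mul, hB, mul_div_assoc]
      refine mul_le_mul (hCf x hxI) ?_ (abs_nonneg _) hCf0
      rw [show ∀ a b c : ℝ, a * b + c - a = a * (b - 1) + c from fun a b c => by ring, add_div,
        Finset.sum_div]
      exact (abs_add_le _ _).trans (add_le_add t1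
        ((Finset.abs_sum_le_sum_abs _ _).trans (Finset.sum_le_sum fun i _ => t2 i)))
    have hg0 : ∀ x, (2 * ρ) ^ 2 < sqn x → g x = 0 := fun x hx => by
      obtain ⟨e1, e2⟩ := hz1 x (by linarith [show (2 * ρ) ^ 2 = 4 * ρ ^ 2 by ring])
      simp [hg, hl, e1, e2]
    have h2 := integral_le_box hρ hb (div_nonneg hB0 (sq_nonneg _)) hg0 hgi
    rw [hg, integral_sub ib ia] at h2
    have h3 : B / ρ ^ 2 * (4 * ρ) ^ n ≤ B * 4 ^ n * ρ := by
      rw [mul_pow, div_mul_eq_mul_div, div_le_iff₀ (by positivity)]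
      have : ρ ^ n ≤ ρ * ρ ^ 2 := by
        rw [← pow_succ']; exact pow_le_pow_of_le_one hρ.le hρ1 hn
      calc B * (4 ^ n * ρ ^ n) ≤ B * (4 ^ n * (ρ * ρ ^ 2)) := by gcongr
        _ = _ := by ring
    linarith
  by_contra h
  push Not at h
  obtain ⟨ρ, h1, h2, h3⟩ : ∃ ρ : ℝ, 0 < ρ ∧ ρ ≤ 1 ∧ B * 4 ^ n * ρ < -∫ x, f x * lap η x := by
    have hP : 0 ≤ B * 4 ^ n := by positivity
    refine ⟨min 1 (-(∫ x, f x * lap η x) / (B * 4 ^ n + 1)),
      lt_min one_pos (by positivity [neg_pos.2 h]), min_le_left _ _, ?_⟩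
    calc B * 4 ^ n * min 1 (-(∫ x, f x * lap η x) / (B * 4 ^ n + 1))
        ≤ B * 4 ^ n * (-(∫ x, f x * lap η x) / (B * 4 ^ n + 1)) :=
          mul_le_mul_of_nonneg_left (min_le_right _ _) hP
      _ < _ := by
          rw [mul_div_assoc', div_lt_iff₀ (by positivity)]
          nlinarith
  linarith [key ρ h1 h2]

/-- The kernel. -/
noncomputable def ker (y : Fin n → ℝ) : ℝ := 6 * posPow 2 (1 - sqn y)

theorem continuous_ker : Continuous (ker (n := n)) :=
  continuous_const.mul ((contDiff_posPow le_rfl).continuous.comp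
    (continuous_const.sub contDiff_sqn.continuous))

theorem ker_nonneg (y : Fin n → ℝ) : 0 ≤ ker y := by
  unfold ker posPow; positivity

theorem ker_eq_zero {y : Fin n → ℝ} (h : 1 < sqn y) : ker y = 0 := by
  simp [ker, posPow, max_eq_right (show 1 - sqn y ≤ 0 by linarith)]

theorem hasCompactSupport_ker : HasCompactSupport (ker (n := n)) :=
  HasCompactSupport.intro (isCompact_Icc (a := fun _ : Fin n => -(1 : ℝ)) (b := fun _ => 1))
    fun y hy => ker_eq_zero (by
      by_contra h
      have := fun i => abs_le.1 (abs_le_of_sqn_le zero_le_one (by linarith [not_lt.1 h]) i)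
      exact hy ⟨fun i => (this i).1, fun i => (this i).2⟩)

theorem ker_mass_pos : 0 < ∫ y : Fin n → ℝ, ker y :=
  continuous_ker.integral_pos_of_hasCompactSupport_nonneg_nonzero hasCompactSupport_ker
    ker_nonneg (x := 0) (by simp [ker, posPow, sqn])

/-- The mean of `f` at scale `t`. -/
noncomputable def avg (f : (Fin n → ℝ) → ℝ) (x₀ : Fin n → ℝ) (t : ℝ) : ℝ :=
  ∫ z, f (x₀ + t • z) * ker z

theorem avg_eq (f : (Fin n → ℝ) → ℝ) (x₀ : Fin n → ℝ) {t : ℝ} (ht : 0 < t) :
    avg f x₀ t = ∫ x, f x * ((t ^ n)⁻¹ * (6 * posPow 2 (1 - sqn (x - x₀) / t ^ 2))) := by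
  have h1 := Measure.integral_comp_smul_of_nonneg (μ := volume)
    (f := fun y : Fin n → ℝ => f (x₀ + y) * (6 * posPow 2 (1 - sqn y / t ^ 2))) t (hR := ht.le)
  have e : ∀ z : Fin n → ℝ, sqn (t • z) / t ^ 2 = sqn z := fun z => by
    simp only [sqn, Pi.smul_apply, smul_eq_mul, mul_pow, ← Finset.mul_sum]
    field_simp
  simp only [e, Module.finrank_fin_fun, smul_eq_mul] at h1
  rw [avg, show (fun z => f (x₀ + t • z) * ker z) =
    fun z => f (x₀ + t • z) * (6 * posPow 2 (1 - sqn z)) from rfl, h1,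
    ← integral_add_left_eq_self (μ := volume)
      (fun x => f x * ((t ^ n)⁻¹ * (6 * posPow 2 (1 - sqn (x - x₀) / t ^ 2)))) x₀,
    ← integral_const_mul]
  exact integral_congr_ae (Eventually.of_forall fun y => by simp; ring)

theorem continuous_avg {f : (Fin n → ℝ) → ℝ} (hf : Continuous f) (x₀ : Fin n → ℝ) :
    Continuous (avg f x₀) := by
  unfold avg
  refine continuousOn_univ.1 (continuousOn_integral_of_compact_support
    (hasCompactSupport_ker (n := n)).isCompact ?_ fun t z _ hz => ?_)
  · exact Continuous.continuousOn ((hf.comp (by fun_prop :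
      Continuous fun p : ℝ × (Fin n → ℝ) => x₀ + p.1 • p.2)).mul
        (continuous_ker.comp continuous_snd))
  · simp [image_eq_zero_of_notMem_tsupport hz]

/-- The means increase. -/
theorem avg_mono (hn : 3 ≤ n) {f : (Fin n → ℝ) → ℝ} (hf : Continuous f) (hs : WeakSub f)
    (x₀ : Fin n → ℝ) {a b : ℝ} (ha : 0 < a) (hab : a ≤ b) : avg f x₀ a ≤ avg f x₀ b := by
  set G := fun (t : ℝ) (x : Fin n → ℝ) =>
    (t ^ n)⁻¹ * (6 * posPow 2 (1 - sqn (x - x₀) / t ^ 2)) with hG
  set L := fun (t : ℝ) (x : Fin n → ℝ) => -(6 * n) * max (1 - sqn (x - x₀) / t ^ 2) 0 ^ 2 +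
    24 * (sqn (x - x₀) / t ^ 2) * max (1 - sqn (x - x₀) / t ^ 2) 0 with hL
  have cS : Continuous fun x : Fin n → ℝ => sqn (x - x₀) :=
    contDiff_sqn.continuous.comp (continuous_id.sub continuous_const)
  have hGd : ∀ t : ℝ, 0 < t → ∀ x, HasDerivAt (fun t => G t x) ((t ^ (n + 1))⁻¹ * L t x) t := by
    intro t ht x
    have hn1 : t ^ (n - 1) * t = t ^ n := by rw [← pow_succ]; congr 1; omega
    have h1 := (hasDerivAt_pow n t).fun_inv (pow_ne_zero n ht.ne')
    have h2 : HasDerivAt (fun t : ℝ => 1 - sqn (x - x₀) / t ^ 2)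
        (2 * sqn (x - x₀) / t ^ 3) t := by
      have := ((hasDerivAt_pow 2 t).fun_inv (pow_ne_zero 2 ht.ne')).const_mul (sqn (x - x₀))
      simpa only [← div_eq_mul_inv] using (this.const_sub 1).congr_deriv (by
        push_cast; field_simp)
    have h3 := ((hasDerivAt_posPow (N := 2) le_rfl (1 - sqn (x - x₀) / t ^ 2)).comp t h2).const_mul
      (6 : ℝ)
    refine (h1.fun_mul h3).congr_deriv ?_
    simp only [hL, Function.comp_apply, posPow]
    push_cast
    simp only [pow_one]
    rw [pow_succ t n, ← hn1]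
    field_simp
    ring
  have hlap : ∀ t : ℝ, 0 < t → Test (fun x => posPow 3 (1 - sqn (x - x₀) / t ^ 2)) ∧
      ∀ x, lap (fun x => posPow 3 (1 - sqn (x - x₀) / t ^ 2)) x = (t ^ 2)⁻¹ * L t x := by
    intro t ht
    have hsd : ∀ x : Fin n → ℝ, HasFDerivAt (fun y => 1 - sqn (y - x₀) / t ^ 2)
        (-((t ^ 2)⁻¹ • fderiv ℝ sqn (x - x₀))) x := fun x => by
      have h0 := (((contDiff_sqn.differentiable one_ne_zero) (x - x₀)).hasFDerivAt.comp x
        ((hasFDerivAt_id x).sub_const x₀)).const_mul (t ^ 2)⁻¹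
      simpa [div_eq_mul_inv, mul_comm, Function.comp_def] using h0.const_sub 1
    have hS1 : ContDiff ℝ 1 fun y : Fin n → ℝ => 1 - sqn (y - x₀) / t ^ 2 :=
      contDiff_const.sub ((contDiff_sqn.comp (contDiff_id.sub contDiff_const)).div_const _)
    have e1 : ∀ (y : Fin n → ℝ) (i : Fin n), pd i (fun x => posPow 3 (1 - sqn (x - x₀) / t ^ 2)) y
        = posPow 2 (1 - sqn (y - x₀) / t ^ 2) * (-6 / t ^ 2 * (y i - x₀ i)) := fun y i => by
      have h := ((hasDerivAt_posPow (N := 3) (by norm_num) _).comp_hasFDerivAt y (hsd y)).fderiv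
      have hs' : fderiv ℝ sqn (y - x₀) (Pi.single i 1) = 2 * (y i - x₀ i) := by
        simpa [pd] using pd_sqn (y - x₀) i
      simp only [Function.comp_def] at h
      rw [pd, h]
      simp [hs', posPow]
      ring
    refine ⟨⟨(contDiff_posPow (by norm_num)).comp hS1, fun i => ?_⟩, fun x => ?_⟩
    · rw [show pd i (fun x => posPow 3 (1 - sqn (x - x₀) / t ^ 2)) = fun y =>
        posPow 2 (1 - sqn (y - x₀) / t ^ 2) * (-6 / t ^ 2 * (y i - x₀ i)) from funext (e1 · i)]
      exact ((contDiff_posPow le_rfl).comp hS1).mul (by fun_prop)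
    · have e2 : ∀ i, pd i (pd i fun x => posPow 3 (1 - sqn (x - x₀) / t ^ 2)) x =
          2 * max (1 - sqn (x - x₀) / t ^ 2) 0 * (-(2 / t ^ 2 * (x i - x₀ i))) *
              (-6 / t ^ 2 * (x i - x₀ i)) +
            posPow 2 (1 - sqn (x - x₀) / t ^ 2) * (-6 / t ^ 2) := fun i => by
        rw [show pd i (fun x => posPow 3 (1 - sqn (x - x₀) / t ^ 2)) = fun y =>
          posPow 2 (1 - sqn (y - x₀) / t ^ 2) * (-6 / t ^ 2 * (y i - x₀ i)) from funext (e1 · i)]
        have h2 : HasFDerivAt (fun y : Fin n → ℝ => -6 / t ^ 2 * (y i - x₀ i))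
            ((-6 / t ^ 2) • ContinuousLinearMap.proj (R := ℝ) (φ := fun _ : Fin n => ℝ) i) x :=
          ((ContinuousLinearMap.proj (R := ℝ) (φ := fun _ : Fin n => ℝ) i).hasFDerivAt.sub_const
            (x₀ i)).const_mul _
        have h := (((hasDerivAt_posPow (N := 2) le_rfl _).comp_hasFDerivAt x (hsd x)).fun_mul
          h2).fderiv
        have hs' : fderiv ℝ sqn (x - x₀) (Pi.single i 1) = 2 * (x i - x₀ i) := by
          simpa [pd] using pd_sqn (x - x₀) i
        simp only [Function.comp_def] at h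
        rw [pd, h]
        simp [hs']
        ring
      rw [lap, Finset.sum_congr rfl fun i _ => e2 i]
      simp only [hL, posPow]
      rw [Finset.sum_add_distrib, Finset.sum_const, Finset.card_univ, Fintype.card_fin,
        nsmul_eq_mul]
      simp only [sqn, Pi.sub_apply, Finset.sum_div, Finset.mul_sum, Finset.sum_mul, mul_add]
      rw [add_comm]
      congr 1
      · ring
      · exact Finset.sum_congr rfl fun i _ => by ring
  have key : ∀ t ∈ Icc a b, ∃ D, 0 ≤ D ∧ HasDerivAt (avg f x₀) D t := by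
    intro t ht
    have ht0 : 0 < t := lt_of_lt_of_le ha ht.1
    have hKc : IsCompact {x : Fin n → ℝ | sqn (x - x₀) ≤ (2 * t) ^ 2} := by
      refine (isCompact_Icc (a := fun i => x₀ i - 2 * t) (b := fun i => x₀ i + 2 * t)
        ).of_isClosed_subset (isClosed_le cS continuous_const) fun y hy => ?_
      have h := fun i => abs_le.1 (abs_le_of_sqn_le (x := y - x₀) (by linarith) hy i)
      exact ⟨fun i => by have := (h i).1; simp at this; linarith,
        fun i => by have := (h i).2; simp at this; linarith⟩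
    have hnb : Ioo (t / 2) (2 * t) ∈ 𝓝 t := Ioo_mem_nhds (by linarith) (by linarith)
    have hoff : ∀ s ∈ Icc (t / 2) (2 * t), ∀ x, x ∉ {x : Fin n → ℝ | sqn (x - x₀) ≤ (2 * t) ^ 2} →
        max (1 - sqn (x - x₀) / s ^ 2) 0 = 0 := fun s hs x hx => by
      refine max_eq_right ?_
      have hs0 : 0 < s := by linarith [hs.1]
      rw [sub_nonpos, le_div_iff₀ (by positivity), one_mul]
      exact (pow_le_pow_left₀ hs0.le hs.2 2).trans (not_le.1 hx).le
    have cGL : ∀ s : ℝ, 0 < s → Continuous (fun x => f x * G s x) ∧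
        Continuous fun x => f x * ((s ^ (n + 1))⁻¹ * L s x) := fun s _ => by
      simp only [hG, hL, posPow]
      exact ⟨by fun_prop, by fun_prop⟩
    obtain ⟨C, hC⟩ := (hKc.prod (isCompact_Icc (a := t / 2) (b := 2 * t))
      ).exists_bound_of_continuousOn
      (f := fun p : (Fin n → ℝ) × ℝ => f p.1 * ((p.2 ^ (n + 1))⁻¹ * L p.2 p.1)) (by
        intro p hp
        have hp0 : p.2 ≠ 0 := by have := hp.2.1; linarith
        have cS' : Continuous fun p : (Fin n → ℝ) × ℝ => sqn (p.1 - x₀) := cS.comp continuous_fst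
        simp only [hL]
        exact ContinuousAt.continuousWithinAt (by fun_prop (disch := simp [hp0])))
    have hgi : ∀ s ∈ Ioo (t / 2) (2 * t), Integrable fun x => f x * G s x := fun s hs => by
      refine integrable_of_zero_off (cGL s (by linarith [hs.1])).1.continuousOn hKc
        (subset_univ _) fun x hx => ?_
      simp [hG, posPow, hoff s (Ioo_subset_Icc_self hs) x hx]
    have h := hasDerivAt_integral_of_dominated_loc_of_deriv_le (μ := volume)
      (F := fun s x => f x * G s x) (F' := fun s x => f x * ((s ^ (n + 1))⁻¹ * L s x))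
      (bound := ({x : Fin n → ℝ | sqn (x - x₀) ≤ (2 * t) ^ 2}).indicator fun _ => C) (x₀ := t)
      (s := Ioo (t / 2) (2 * t)) hnb
      (eventually_of_mem hnb fun s hs => (hgi s hs).aestronglyMeasurable)
      (hgi t (mem_of_mem_nhds hnb)) (cGL t ht0).2.aestronglyMeasurable
      (Eventually.of_forall fun x s hs => by
        by_cases hx : x ∈ {x : Fin n → ℝ | sqn (x - x₀) ≤ (2 * t) ^ 2}
        · rw [Set.indicator_of_mem hx]
          exact hC (x, s) ⟨hx, Ioo_subset_Icc_self hs⟩
        · simp [Set.indicator_of_notMem hx, hL, hoff s (Ioo_subset_Icc_self hs) x hx])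
      ((integrableOn_const hKc.measure_lt_top.ne).integrable_indicator hKc.measurableSet)
      (Eventually.of_forall fun x s hs =>
        (hGd s (by linarith [hs.1]) x).const_mul (f x))
    refine ⟨_, ?_, h.2.congr_of_eventuallyEq (eventually_of_mem hnb fun s hs =>
      avg_eq f x₀ (by linarith [hs.1]))⟩
    obtain ⟨hη, hl⟩ := hlap t ht0
    have hw := weakSub_test hn hf hs hη (HasCompactSupport.intro hKc fun x hx => by
      simp [posPow, hoff t ⟨by linarith, by linarith⟩ x hx]) fun x => by unfold posPow; positivity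
    simp only [hl] at hw
    have e : ∀ x, f x * ((t ^ (n + 1))⁻¹ * L t x) =
        (t ^ 2 / t ^ (n + 1)) * (f x * ((t ^ 2)⁻¹ * L t x)) := fun x => by field_simp
    simp only [e, integral_const_mul]
    exact mul_nonneg (by positivity) hw
  choose! D hD0 hD using key
  exact monotoneOn_of_hasDerivWithinAt_nonneg (convex_Icc a b) (continuous_avg hf x₀).continuousOn
    (fun t ht => (hD t (interior_subset ht)).hasDerivWithinAt)
    (fun t ht => hD0 t (interior_subset ht)) (left_mem_Icc.2 hab) (right_mem_Icc.2 hab) hab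

/-- The value at a point is at most every mean. -/
theorem le_avg (hn : 3 ≤ n) {f : (Fin n → ℝ) → ℝ} (hf : Continuous f) (hs : WeakSub f)
    (x₀ : Fin n → ℝ) {R : ℝ} (hR : 0 < R) :
    f x₀ * (∫ y : Fin n → ℝ, ker y) ≤ avg f x₀ R := by
  have h0 : avg f x₀ 0 = f x₀ * ∫ y : Fin n → ℝ, ker y := by simp [avg, integral_const_mul]
  rw [← h0]
  refine le_of_tendsto ((continuous_avg hf x₀).continuousAt.tendsto.mono_left nhdsWithin_le_nhds)
    (b := avg f x₀ R) (x := 𝓝[>] (0 : ℝ)) ?_
  filter_upwards [self_mem_nhdsWithin, nhdsWithin_le_nhds (Iio_mem_nhds hR)] with t ht htR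
  exact avg_mono hn hf hs x₀ ht (le_of_lt htR)

end Vale.Agent.P100.Eta
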