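import Vale.Agent.P100.Eta.Cutoff
import Vale.Agent.P100.Weighted.Main

/-!
# P100: the Pohozaev route for certificates with coefficients depending on `η`

A certificate with weights `A, B` in `[0, 1]` gives the shell bounds that make the boundary terms
of the Pohozaev identity vanish, so `n ≥ 3` is enough and no lower bound on `A + B` enters beyond
`(1 - A)(p+1) + (1 - B)(q+1) ≤ pq - 1`.
-/

namespace Vale.Agent.P100.Eta

open Set Filter Topology MeasureTheory
open Vale.Agent.P252 (pd)
open Vale.Agent.P100.Weighted (rw' jw densW StepBound)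

variable {n : ℕ} {p q A B : ℝ} {u v : (Fin n → ℝ) → ℝ}

theorem densW_zero (u v : (Fin n → ℝ) → ℝ) (x : Fin n → ℝ) :
    densW 0 0 p q A B u v x = certDensity p q A B u v x := by
  simp [densW, certDensity, jw, js, rw']

/-- The shell step from a certificate with variable coefficients. -/
theorem stepBound_of_etaCert (hn : 3 ≤ n) (h : IsSol p q u v) (hq : 0 < q) (hqp : q ≤ p)
    (hpq : 1 < p * q) {δ : ℝ} (hδ : 0 < δ) {c : Fin 14 → ℝ → ℝ}
    (hc : ∀ k, ContDiffOn ℝ 1 (c k) (Ioi 0)) {Cb : ℝ}
    (hb : ∀ k e, 0 < e → e ≤ (p + 1) / (q + 1) → |c k e| ≤ Cb)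
    (hcert : IsEtaCert n p q A B δ c) : StepBound 0 0 p q A B u v := by
  set η := eta p q u v with hη
  set φ := fun k x => c k (η x) with hφ
  have hηs : ∀ x, η x ≤ (p + 1) / (q + 1) := eta_le hn h hq hqp hpq
  have hφs : ∀ k, ContDiffOn ℝ 1 (φ k) (punctured n) := fun k =>
    (hc k).comp (contDiffOn_eta h) fun x _ => eta_pos h x
  have hφd : ∀ k, ∀ x ∈ punctured n, ∀ i, pd i (φ k) x =
      η x * deriv (c k) (η x) * ((p + 1) * ja v x i - (q + 1) * ja u x i) := fun k x hx i => by
    have h1 := (((hc k).contDiffAt (Ioi_mem_nhds (eta_pos h x))).differentiableAt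
      one_ne_zero).hasDerivAt
    have e := (h1.comp_hasFDerivAt x (diffAt (contDiffOn_eta h) hx).hasFDerivAt).fderiv
    have e' := pd_eta h hx i
    simp only [pd] at e'
    rw [pd, show φ k = c k ∘ eta p q u v from rfl, e]
    simp [hη, e']
    ring
  have hG : GoodField (fun i x => ∑ k, φ k x * solField p q A B u v k i x)
      (fun x => ∑ k, (φ k x * solDiv p q A B u v k x +
        ∑ i, pd i (φ k) x * solField p q A B u v k i x)) :=
    (GoodField.combine (fun k => good_smul (good_field (A := A) (B := B) h k) (hφs k))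
      (fun _ => 1)).congr (fun x _ i => by simp) fun x _ => by simp
  set K := 14 * |Cb| * (n : ℝ) with hK
  refine Weighted.step_of_field (toW h) hδ le_rfl (K := K ^ 4) (pow4_nonneg _) hG
    (fun x hx => ?_) fun x hx i => ?_
  · rw [densW_zero, zero_mul, add_zero]
    have htr : ∀ {f g : (Fin n → ℝ) → ℝ} {r : ℝ}, lap f x = -(g x ^ r) →
        ∑ i, jP f x i i = -js r f g x := fun hl => by
      rw [js, ← neg_div, ← hl]
      simp only [jP, lap, Finset.sum_div]
    have hc' := hcert (η x) (ja u x) (ja v x) (jP u x) (jP v x) (js p u v x) (js q v u x)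
      (eta_pos h x) (hηs x) (js_eq_eta h x)
      (fun i j => by simp only [jP]; rw [pd_pd_comm isOpen_punctured h.smooth_u hx])
      (fun i j => by simp only [jP]; rw [pd_pd_comm isOpen_punctured h.smooth_v hx])
      (htr (h.eq_u x hx)) (htr (h.eq_v x hx)) (js_pos h x) (js_pos h.swap x)
    have hG0 := (sq_nonneg _).trans (energy_ge (ja u x) (ja v x) (jP u x) (jP v x)
      (js p u v x) (js q v u x)).1
    have hF0 : 0 ≤ certDensity p q A B u v x := mul_nonneg (wt_pos h x).le hG0
    calc δ / 2 * certDensity p q A B u v x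
        ≤ δ * certDensity p q A B u v x := mul_le_mul_of_nonneg_right (by linarith) hF0
      _ = wt A B u v x * (δ * energy (ja u x) (ja v x) (jP u x) (jP v x) (js p u v x)
            (js q v u x)) := by rw [certDensity]; ring
      _ ≤ _ := mul_le_mul_of_nonneg_left hc' (wt_pos h x).le
      _ = _ := by
          have e : ∀ k, ∑ i, pd i (φ k) x * solField p q A B u v k i x = ∑ i, η x *
              deriv (c k) (η x) * ((p + 1) * ja v x i - (q + 1) * ja u x i) *
                solField p q A B u v k i x := fun k =>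
            Finset.sum_congr rfl fun i _ => by rw [hφd k x hx]
          simp only [e]
          simp only [hφ, solDiv, solField, jetDiv, dotv, Finset.mul_sum,
            ← Finset.sum_add_distrib, mul_add]
          exact Finset.sum_congr rfl fun k _ => by
            congr 1
            · ring
            · exact Finset.sum_congr rfl fun i _ => by ring
  · rw [densW_zero]
    set G := energy (ja u x) (ja v x) (jP u x) (jP v x) (js p u v x) (js q v u x) with hGe
    have hG0 : 0 ≤ G := (sq_nonneg _).trans (energy_ge _ _ _ _ _ _).1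
    set m := Real.sqrt (Real.sqrt G) with hm
    have hW0 : 0 < wt A B u v x := wt_pos h x
    have hle : |∑ k, φ k x * solField p q A B u v k i x| ≤ K * (wt A B u v x * m ^ 3) := by
      refine (Finset.abs_sum_le_sum_abs _ _).trans ?_
      refine (Finset.sum_le_sum (g := fun _ => |Cb| * (wt A B u v x * (n * m ^ 3)))
        fun k _ => ?_).trans_eq (by simp [hK]; ring)
      rw [abs_mul, solField, abs_mul, abs_of_pos hW0]
      exact mul_le_mul ((hb k _ (eta_pos h x) (hηs x)).trans (le_abs_self _))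
        (mul_le_mul_of_nonneg_left (jetField_bound _ _ _ _ _ _ i k) hW0.le) (by positivity)
        (abs_nonneg _)
    have hm4 : m ^ 4 = G := by
      rw [show m ^ 4 = (m ^ 2) ^ 2 by ring, Real.sq_sqrt (Real.sqrt_nonneg _), Real.sq_sqrt hG0]
    calc (∑ k, φ k x * solField p q A B u v k i x) ^ 4
        = |∑ k, φ k x * solField p q A B u v k i x| ^ 4 := (pow4_abs _).symm
      _ ≤ (K * (wt A B u v x * m ^ 3)) ^ 4 := pow_le_pow_left₀ (abs_nonneg _) hle 4
      _ = K ^ 4 * ((wt A B u v x * m ^ 4) ^ 3 * wt A B u v x) := by ring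
      _ = _ := by rw [hm4]; rfl

/-- **Nonexistence, Pohozaev route.** -/
theorem no_solution_of_eta_cert_poho (hn : 3 ≤ n) (hq : 0 < q) (hqp : q ≤ p) (hpq : 1 < p * q)
    (hA : 0 ≤ A) (hA' : A ≤ 1) (hB : 0 ≤ B) (hB' : B ≤ 1)
    (hγ : (1 - A) * (p + 1) + (1 - B) * (q + 1) ≤ p * q - 1)
    (hsub : (n : ℝ) - 2 < (n : ℝ) / (p + 1) + (n : ℝ) / (q + 1)) {δ : ℝ} (hδ : 0 < δ)
    {c : Fin 14 → ℝ → ℝ} (hc : ∀ k, ContDiffOn ℝ 1 (c k) (Ioi 0)) {Cb : ℝ}
    (hb : ∀ k e, 0 < e → e ≤ (p + 1) / (q + 1) → |c k e| ≤ Cb)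
    (hcert : IsEtaCert n p q A B δ c) :
    ¬ ∃ u v : (Fin n → ℝ) → ℝ, IsSol p q u v := by
  rintro ⟨u, v, h⟩
  exact Weighted.no_solution_of_step hn (toW h) (hq.trans_le hqp) hq hpq hA hA' hB hB' hγ
    (by simpa using hsub) (stepBound_of_etaCert hn h hq hqp hpq hδ hc hb hcert)

end Vale.Agent.P100.Eta
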